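import Mathlib

/-!
P092 (helper967): Kaplansky density for a unitary, in the form needed for group von Neumann
algebras.  If `S ≤ M` are unital star-subalgebras of `B(H)`, `M` norm closed, `ξ` a tracial vector
for `M` and `V ∈ M` is a unitary such that `V ξ` is a limit of vectors `x ξ`, `x ∈ S` (no bound on
the norm of `x`), then `V ξ` is a limit of vectors `y ξ` with `y ∈ S` and `‖y‖ ≤ 1`.
-/

namespace Vale.Agent.P092.H967

open ContinuousLinearMap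

variable {H : Type*} [NormedAddCommGroup H] [InnerProductSpace ℂ H] [CompleteSpace H]

/-- `1 + x* x` is bounded below. -/
theorem norm_le_one_add (x : H →L[ℂ] H) (η : H) :
    ‖η‖ ≤ ‖(1 + star x * x) η‖ := by
  have h1 : RCLike.re (inner ℂ η ((1 + star x * x) η)) = ‖η‖ ^ 2 + ‖x η‖ ^ 2 := by
    have : (1 + star x * x) η = η + (star x) (x η) := rfl
    rw [this, inner_add_right, map_add, star_eq_adjoint, adjoint_inner_right]
    simp [inner_self_eq_norm_sq_to_K]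
    norm_cast
  have h2 : RCLike.re (inner ℂ η ((1 + star x * x) η)) ≤ ‖η‖ * ‖(1 + star x * x) η‖ :=
    re_inner_le_norm _ _
  rw [h1] at h2
  rcases (norm_nonneg η).eq_or_lt with h | h
  · rw [← h]; exact norm_nonneg _
  · nlinarith [sq_nonneg ‖x η‖]

theorem norm_two_smul_le (x : H →L[ℂ] H) (η : H) :
    2 * ‖x η‖ ≤ ‖(1 + star x * x) η‖ := by
  have h1 : ‖(1 + star x * x) η‖ ^ 2 = ‖η‖ ^ 2 + 2 * ‖x η‖ ^ 2 + ‖(star x) (x η)‖ ^ 2 := by
    have : (1 + star x * x) η = η + (star x) (x η) := rfl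
    rw [this, @norm_add_sq ℂ, star_eq_adjoint, adjoint_inner_right]
    simp [inner_self_eq_norm_sq_to_K]
    norm_cast
  have h2 : ‖x η‖ ^ 2 ≤ ‖η‖ * ‖(star x) (x η)‖ := by
    have h3 : RCLike.re (inner ℂ η ((star x) (x η))) = ‖x η‖ ^ 2 := by
      rw [star_eq_adjoint, adjoint_inner_right]
      simp [inner_self_eq_norm_sq_to_K]
      norm_cast
    rw [← h3]
    exact re_inner_le_norm _ _
  have h4 : (2 * ‖x η‖) ^ 2 ≤ ‖(1 + star x * x) η‖ ^ 2 := by
    rw [h1]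
    nlinarith [sq_nonneg (‖η‖ - ‖(star x) (x η)‖)]
  exact (abs_le_of_sq_le_sq' h4 (norm_nonneg _)).2

theorem isUnit_one_add (x : H →L[ℂ] H) : IsUnit (1 + star x * x) := by
  apply CStarAlgebra.isUnit_of_le (1 : H →L[ℂ] H)
  exact le_add_of_nonneg_right (star_mul_self_nonneg x)

omit [CompleteSpace H] in
theorem inner_self_c (v : H) : inner ℂ v v = ((‖v‖ : ℝ) : ℂ) ^ 2 :=
  inner_self_eq_norm_sq_to_K (𝕜 := ℂ) v

/-- In a tracial algebra `‖a b ξ‖ ≤ ‖b‖ ‖a ξ‖`. -/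
theorem norm_mul_le_of_trace (M : StarSubalgebra ℂ (H →L[ℂ] H)) (ξ : H)
    (htr : ∀ a ∈ M, ∀ b ∈ M, inner ℂ ξ (a (b ξ)) = inner ℂ ξ (b (a ξ)))
    {a b : H →L[ℂ] H} (ha : a ∈ M) (hb : b ∈ M) :
    ‖a (b ξ)‖ ≤ ‖b‖ * ‖a ξ‖ := by
  have e1 : ∀ c : H →L[ℂ] H, ∀ d : H →L[ℂ] H, (c * d) ξ = c (d ξ) := fun _ _ => rfl
  have h1 : (‖a (b ξ)‖ : ℂ) ^ 2 = (‖(star b) ((star a) ξ)‖ : ℂ) ^ 2 := by
    have h := htr (star b * star a) (mul_mem (star_mem hb) (star_mem ha)) (a * b) (mul_mem ha hb)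
    have l1 : inner ℂ ξ ((star b * star a) ((a * b) ξ)) = (‖a (b ξ)‖ : ℂ) ^ 2 := by
      rw [← inner_self_c]
      change inner ℂ ξ ((star b) ((star a) (a (b ξ)))) = _
      rw [star_eq_adjoint, star_eq_adjoint, adjoint_inner_right, adjoint_inner_right]
    have l2 : inner ℂ ξ ((a * b) ((star b * star a) ξ)) = (‖(star b) ((star a) ξ)‖ : ℂ) ^ 2 := by
      rw [← inner_self_c]
      change inner ℂ ξ (a (b ((star b) ((star a) ξ)))) = _
      rw [← adjoint_inner_left a, ← adjoint_inner_left b]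
      rfl
    rw [← l1, ← l2, h]
  have h2 : (‖a ξ‖ : ℂ) ^ 2 = (‖(star a) ξ‖ : ℂ) ^ 2 := by
    have h := htr (star a) (star_mem ha) a ha
    have l1 : inner ℂ ξ ((star a) (a ξ)) = (‖a ξ‖ : ℂ) ^ 2 := by
      rw [← inner_self_c, star_eq_adjoint, adjoint_inner_right]
    have l2 : inner ℂ ξ (a ((star a) ξ)) = (‖(star a) ξ‖ : ℂ) ^ 2 := by
      rw [← inner_self_c, ← adjoint_inner_left a]
      rfl
    rw [← l1, ← l2, h]
  have h1' : ‖a (b ξ)‖ = ‖(star b) ((star a) ξ)‖ := by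
    have : ‖a (b ξ)‖ ^ 2 = ‖(star b) ((star a) ξ)‖ ^ 2 := by exact_mod_cast h1
    exact (sq_eq_sq₀ (norm_nonneg _) (norm_nonneg _)).1 this
  have h2' : ‖a ξ‖ = ‖(star a) ξ‖ := by
    have : ‖a ξ‖ ^ 2 = ‖(star a) ξ‖ ^ 2 := by exact_mod_cast h2
    exact (sq_eq_sq₀ (norm_nonneg _) (norm_nonneg _)).1 this
  rw [h1', h2']
  calc ‖(star b) ((star a) ξ)‖ ≤ ‖star b‖ * ‖(star a) ξ‖ := le_opNorm _ _
    _ = ‖b‖ * ‖(star a) ξ‖ := by rw [norm_star]

theorem norm_star_apply_of_trace (M : StarSubalgebra ℂ (H →L[ℂ] H)) (ξ : H)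
    (htr : ∀ a ∈ M, ∀ b ∈ M, inner ℂ ξ (a (b ξ)) = inner ℂ ξ (b (a ξ)))
    {a : H →L[ℂ] H} (ha : a ∈ M) : ‖(star a) ξ‖ = ‖a ξ‖ := by
  have h := htr (star a) (star_mem ha) a ha
  have l1 : inner ℂ ξ ((star a) (a ξ)) = (‖a ξ‖ : ℂ) ^ 2 := by
    rw [← inner_self_c, star_eq_adjoint, adjoint_inner_right]
  have l2 : inner ℂ ξ (a ((star a) ξ)) = (‖(star a) ξ‖ : ℂ) ^ 2 := by
    rw [← inner_self_c, ← adjoint_inner_left a]
    rfl
  have h2 : (‖a ξ‖ : ℂ) ^ 2 = (‖(star a) ξ‖ : ℂ) ^ 2 := by rw [← l1, ← l2, h]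
  have : ‖a ξ‖ ^ 2 = ‖(star a) ξ‖ ^ 2 := by exact_mod_cast h2
  exact ((sq_eq_sq₀ (norm_nonneg _) (norm_nonneg _)).1 this).symm

/-- **Kaplansky density for a unitary** in a tracial von Neumann algebra, elementary form. -/
theorem kaplansky_unitary (M S : StarSubalgebra ℂ (H →L[ℂ] H)) (hM : IsClosed (M : Set (H →L[ℂ] H)))
    (hSM : S ≤ M) (ξ : H)
    (htr : ∀ a ∈ M, ∀ b ∈ M, inner ℂ ξ (a (b ξ)) = inner ℂ ξ (b (a ξ)))
    (V : H →L[ℂ] H) (hV : V ∈ M) (hVu : V * star V = 1)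
    (hd : ∀ ε > 0, ∃ x ∈ S, ‖x ξ - V ξ‖ ≤ ε) :
    ∀ ε > 0, ∃ y ∈ S, ‖y‖ ≤ 1 ∧ ‖y ξ - V ξ‖ ≤ ε := by
  intro ε hε
  obtain ⟨x, hxS, hx⟩ := hd (ε / 4) (by positivity)
  have hxM : x ∈ M := hSM hxS
  set e : H →L[ℂ] H := x - V with he
  have heM : e ∈ M := sub_mem hxM hV
  have heξ : ‖e ξ‖ ≤ ε / 4 := hx
  obtain ⟨P, hP⟩ := isUnit_one_add x
  set Q : H →L[ℂ] H := ((P⁻¹ : (H →L[ℂ] H)ˣ) : H →L[ℂ] H) with hQ
  have hPQ : (1 + star x * x) * Q = 1 := by rw [← hP]; exact P.mul_inv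
  -- `Q` belongs to the closure of `S`
  have hQS : Q ∈ S.topologicalClosure := by
    have : IsClosed (S.topologicalClosure : Set (H →L[ℂ] H)) :=
      StarSubalgebra.isClosed_topologicalClosure S
    have hxc : x ∈ S.topologicalClosure := StarSubalgebra.le_topologicalClosure S hxS
    have hmem : (1 + star x * x) ∈ S.topologicalClosure :=
      add_mem (one_mem _) (mul_mem (star_mem hxc) hxc)
    have hu : IsUnit (⟨1 + star x * x, hmem⟩ : S.topologicalClosure) := by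
      rw [← StarSubalgebra.coe_isUnit]
      exact isUnit_one_add x
    obtain ⟨U, hU⟩ := hu
    have h1 : (1 + star x * x) * ((U⁻¹ : (S.topologicalClosure)ˣ) : S.topologicalClosure).1 = 1 := by
      have := congrArg Subtype.val U.mul_inv
      rw [hU] at this
      exact this
    have h2 : Q = ((U⁻¹ : (S.topologicalClosure)ˣ) : S.topologicalClosure).1 := by
      have hPl : Q * (1 + star x * x) = 1 := by rw [← hP]; exact P.inv_mul
      calc Q = Q * 1 := (mul_one _).symm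
        _ = Q * ((1 + star x * x) * ((U⁻¹ : (S.topologicalClosure)ˣ) : S.topologicalClosure).1) := by
            rw [h1]
        _ = _ := by rw [← mul_assoc, hPl, one_mul]
    rw [h2]
    exact ((U⁻¹ : (S.topologicalClosure)ˣ) : S.topologicalClosure).2
  have hSc : S.topologicalClosure ≤ M := StarSubalgebra.topologicalClosure_minimal hSM hM
  have hQM : Q ∈ M := hSc hQS
  have hQn : ‖Q‖ ≤ 1 := by
    refine opNorm_le_bound _ zero_le_one fun η => ?_
    have h1 := norm_le_one_add x (Q η)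
    have h2 : (1 + star x * x) (Q η) = η := by
      have := congrArg (fun T : H →L[ℂ] H => T η) hPQ
      exact this
    rw [h2] at h1
    simpa using h1
  have hxQn : ‖x * Q‖ ≤ 1 / 2 := by
    refine opNorm_le_bound _ (by norm_num) fun η => ?_
    have h1 := norm_two_smul_le x (Q η)
    have h2 : (1 + star x * x) (Q η) = η := by
      have := congrArg (fun T : H →L[ℂ] H => T η) hPQ
      exact this
    rw [h2] at h1
    have h3 : (x * Q) η = x (Q η) := rfl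
    rw [h3]
    linarith
  -- the contraction near `V`
  set y' : H →L[ℂ] H := (2 : ℂ) • (x * Q) with hy'
  have hy'n : ‖y'‖ ≤ 1 := by
    rw [hy', norm_smul]
    have : ‖(2 : ℂ)‖ = 2 := by simp
    rw [this]; linarith
  have hxc : x ∈ S.topologicalClosure := StarSubalgebra.le_topologicalClosure S hxS
  have hy'S : y' ∈ S.topologicalClosure := SMulMemClass.smul_mem _ (mul_mem hxc hQS)
  have hy'V : ‖y' ξ - V ξ‖ ≤ ε / 2 := by
    have h1 : y' - V = e * Q - V * (star e * (x * Q)) := by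
      have hV1 : V = V * ((1 + star x * x) * Q) := by rw [hPQ, mul_one]
      have hse : star x = star e + star V := by rw [he]; simp
      have h3 : V * ((1 + star x * x) * Q) = V * Q + V * (star e * (x * Q)) + x * Q := by
        have : V * (star V * x * Q) = x * Q := by
          rw [← mul_assoc, ← mul_assoc, hVu, one_mul]
        calc V * ((1 + star x * x) * Q)
            = V * Q + V * (star x * x * Q) := by rw [add_mul, one_mul, mul_add]
          _ = V * Q + (V * (star e * (x * Q)) + V * (star V * x * Q)) := by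
              rw [hse]; congr 1; rw [add_mul, add_mul, mul_add, mul_assoc (star e)]
          _ = _ := by rw [this]; abel
      have h4 : e * Q = x * Q - V * Q := by rw [he, sub_mul]
      have h5 : y' = x * Q + x * Q := by rw [hy', two_smul]
      rw [h5, h4]
      conv_lhs => rw [hV1, h3]
      abel
    have h2 : y' ξ - V ξ = e (Q ξ) - V ((star e) ((x * Q) ξ)) := by
      have := congrArg (fun T : H →L[ℂ] H => T ξ) h1
      exact this
    have n1 : ‖e (Q ξ)‖ ≤ ε / 4 := by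
      calc ‖e (Q ξ)‖ ≤ ‖Q‖ * ‖e ξ‖ := norm_mul_le_of_trace M ξ htr heM hQM
        _ ≤ 1 * (ε / 4) := mul_le_mul hQn heξ (norm_nonneg _) zero_le_one
        _ = ε / 4 := one_mul _
    have n2 : ‖V ((star e) ((x * Q) ξ))‖ ≤ ε / 8 := by
      have hVn : ‖V‖ ≤ 1 := by
        have h6 : ‖V * star V‖ = ‖V‖ * ‖V‖ := CStarRing.norm_self_mul_star
        rw [hVu] at h6
        have h7 : ‖(1 : H →L[ℂ] H)‖ ≤ 1 := norm_id_le
        nlinarith [norm_nonneg V]
      calc ‖V ((star e) ((x * Q) ξ))‖ ≤ ‖V‖ * ‖(star e) ((x * Q) ξ)‖ := le_opNorm _ _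
        _ ≤ 1 * ‖(star e) ((x * Q) ξ)‖ := mul_le_mul_of_nonneg_right hVn (norm_nonneg _)
        _ = ‖(star e) ((x * Q) ξ)‖ := one_mul _
        _ ≤ ‖x * Q‖ * ‖(star e) ξ‖ :=
            norm_mul_le_of_trace M ξ htr (star_mem heM) (mul_mem hxM hQM)
        _ ≤ (1 / 2) * (ε / 4) := by
            rw [norm_star_apply_of_trace M ξ htr heM]
            exact mul_le_mul hxQn heξ (norm_nonneg _) (by norm_num)
        _ = ε / 8 := by ring
    rw [h2]
    calc _ ≤ ‖e (Q ξ)‖ + ‖V ((star e) ((x * Q) ξ))‖ := norm_sub_le _ _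
      _ ≤ ε / 4 + ε / 8 := add_le_add n1 n2
      _ ≤ ε / 2 := by linarith
  -- approximate `y'` in norm by an element of `S`
  set δ : ℝ := ε / (4 * (1 + ‖ξ‖)) with hδ
  have hδ0 : 0 < δ := by positivity
  obtain ⟨z, hzS, hz⟩ : ∃ z ∈ S, ‖y' - z‖ < δ := by
    have h1 : y' ∈ closure (S : Set (H →L[ℂ] H)) := hy'S
    obtain ⟨z, hz, hd⟩ := Metric.mem_closure_iff.1 h1 δ hδ0
    exact ⟨z, hz, by rwa [dist_eq_norm] at hd⟩
  have hzn : ‖z‖ ≤ 1 + δ := by
    calc ‖z‖ = ‖y' - (y' - z)‖ := by congr 1; abel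
      _ ≤ ‖y'‖ + ‖y' - z‖ := norm_sub_le _ _
      _ ≤ 1 + δ := add_le_add hy'n hz.le
  refine ⟨((1 + δ)⁻¹ : ℂ) • z, SMulMemClass.smul_mem _ hzS, ?_, ?_⟩
  · rw [norm_smul]
    have h1 : ‖((1 + δ)⁻¹ : ℂ)‖ = (1 + δ)⁻¹ := by
      rw [norm_inv]
      congr 1
      have : ((1 : ℂ) + (δ : ℂ)) = ((1 + δ : ℝ) : ℂ) := by push_cast; rfl
      rw [this, Complex.norm_real, Real.norm_of_nonneg (by positivity)]
    rw [h1, inv_mul_le_iff₀ (by positivity), mul_one]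
    exact hzn
  · have h1 : ((1 + δ)⁻¹ : ℂ) • z = z - ((δ * (1 + δ)⁻¹ : ℝ) : ℂ) • z := by
      have h2 : ((1 + δ)⁻¹ : ℂ) = 1 - ((δ * (1 + δ)⁻¹ : ℝ) : ℂ) := by
        have h3 : (1 + (δ : ℂ)) ≠ 0 := by
          have : ((1 : ℂ) + (δ : ℂ)) = ((1 + δ : ℝ) : ℂ) := by push_cast; rfl
          rw [this]
          exact_mod_cast (by positivity : (1 + δ) ≠ 0)
        push_cast
        field_simp
        ring
      rw [h2, sub_smul, one_smul]
    have h4 : (((1 + δ)⁻¹ : ℂ) • z) ξ - V ξ =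
        (y' ξ - V ξ) - ((y' - z) ξ) - (((δ * (1 + δ)⁻¹ : ℝ) : ℂ) • z) ξ := by
      rw [h1]
      simp only [sub_apply]
      abel
    rw [h4]
    have n3 : ‖(y' - z) ξ‖ ≤ δ * ‖ξ‖ :=
      (le_opNorm _ _).trans (mul_le_mul_of_nonneg_right hz.le (norm_nonneg _))
    have n4 : ‖(((δ * (1 + δ)⁻¹ : ℝ) : ℂ) • z) ξ‖ ≤ δ * ‖ξ‖ := by
      refine (le_opNorm _ _).trans (mul_le_mul_of_nonneg_right ?_ (norm_nonneg _))
      rw [norm_smul, Complex.norm_real, Real.norm_of_nonneg (by positivity)]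
      calc δ * (1 + δ)⁻¹ * ‖z‖ ≤ δ * (1 + δ)⁻¹ * (1 + δ) :=
            mul_le_mul_of_nonneg_left hzn (by positivity)
        _ = δ := by field_simp
    have n5 : δ * ‖ξ‖ ≤ ε / 4 := by
      rw [hδ, div_mul_eq_mul_div, div_le_div_iff₀ (by positivity) (by norm_num)]
      nlinarith [norm_nonneg ξ]
    calc _ ≤ ‖(y' ξ - V ξ) - ((y' - z) ξ)‖ + ‖(((δ * (1 + δ)⁻¹ : ℝ) : ℂ) • z) ξ‖ := norm_sub_le _ _
      _ ≤ (‖y' ξ - V ξ‖ + ‖(y' - z) ξ‖) + ‖(((δ * (1 + δ)⁻¹ : ℝ) : ℂ) • z) ξ‖ := by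
          gcongr; exact norm_sub_le _ _
      _ ≤ (ε / 2 + ε / 4) + ε / 4 := by linarith
      _ = ε := by ring

end Vale.Agent.P092.H967
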