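import Vale.Agent.P092.H432.PiA

/-!
P092 (helper967), stage (S), block [S3]: small functions along an escaping sequence and
`Π_z(q) + Π_{z⁻¹}(q) = R 1` in the row model.
-/

set_option linter.all false

open scoped InnerProductSpace
open Filter Topology ContinuousLinearMap

namespace Vale.Agent.P092.H967

open Vale.Agent.P092.H160 Vale.Agent.P092.H553 Vale.Agent.P092.H432

section bessel

variable {Γ Λ ι : Type} [Group Γ] [Group Λ] [Fintype ι] {t : ℝ}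
  {R : Λ → (Ell2 (Γ × ι) →L[ℂ] Ell2 (Γ × ι))}

theorem ar_inner (hR : ARep t R) (v : Λ) (ξ η : Ell2 (Γ × ι)) :
    ⟪R v ξ, R v η⟫_ℂ = ⟪ξ, R 1 η⟫_ℂ := by
  rw [← adjoint_inner_right, hR.adj, ← mul_ap, ← hR.mul, inv_mul_cancel]

theorem ar_norm_le (hR : ARep t R) (v : Λ) (ξ : Ell2 (Γ × ι)) : ‖R v ξ‖ ≤ ‖ξ‖ := by
  have h1 : ∀ ζ, ‖R v ζ‖ ^ 2 = (⟪ζ, R 1 ζ⟫_ℂ).re := by
    intro ζ
    rw [← ar_inner hR v, inner_self_eq_norm_sq_to_K]
    norm_cast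
  have h2 : ∀ ζ, ‖R 1 ζ‖ ^ 2 = (⟪ζ, R 1 ζ⟫_ℂ).re := by
    intro ζ
    rw [← ar_inner hR 1, inner_self_eq_norm_sq_to_K]
    norm_cast
  have h3 : ‖R 1 ξ‖ ^ 2 ≤ ‖ξ‖ * ‖R 1 ξ‖ := by
    rw [h2]
    exact (Complex.re_le_norm _).trans (norm_inner_le_norm _ _)
  have h4 : ‖R 1 ξ‖ ≤ ‖ξ‖ := by
    rcases (norm_nonneg (R 1 ξ)).eq_or_lt with h | h
    · rw [← h]; exact norm_nonneg _
    · nlinarith
  have h5 : ‖R v ξ‖ ^ 2 = ‖R 1 ξ‖ ^ 2 := by rw [h1, h2]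
  have h6 : ‖R v ξ‖ = ‖R 1 ξ‖ := (sq_eq_sq₀ (norm_nonneg _) (norm_nonneg _)).1 h5
  rw [h6]; exact h4

theorem ar_orth_self (hR : ARep t R) (v : Λ) :
    ∑ i, ⟪R v (ep i : Ell2 (Γ × ι)), R v (ep i)⟫_ℂ = (t : ℂ) := by
  simp only [ar_inner hR]
  exact hR.tr_one

theorem ar_orth_ne (hR : ARep t R) {v w : Λ} (h : v ≠ w) :
    ∑ i, ⟪R v (ep i : Ell2 (Γ × ι)), R w (ep i)⟫_ℂ = 0 := by
  have h1 : ∀ i, ⟪R v (ep i : Ell2 (Γ × ι)), R w (ep i)⟫_ℂ = ⟪(ep i : Ell2 (Γ × ι)), R (v⁻¹ * w) (ep i)⟫_ℂ := by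
    intro i
    rw [← adjoint_inner_right, hR.adj, ← mul_ap, ← hR.mul]
  simp only [h1]
  exact hR.tr_zero _ fun h2 => h (inv_mul_eq_one.mp h2)

/-- Bessel inequality for the family `(R_v ε_i)_i`. -/
theorem ar_bessel (hR : ARep t R) (a : ι → Ell2 (Γ × ι)) (s : Finset Λ) :
    ∑ v ∈ s, ‖∑ i, ⟪R v (ep i : Ell2 (Γ × ι)), a i⟫_ℂ‖ ^ 2 ≤ t * ∑ i, ‖a i‖ ^ 2 := by
  classical
  obtain ⟨c, hc⟩ : ∃ c : Λ → ℂ, c = fun v => ∑ i, ⟪R v (ep i : Ell2 (Γ × ι)), a i⟫_ℂ := ⟨_, rfl⟩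
  have hcv : ∀ v, ∑ i, ⟪R v (ep i : Ell2 (Γ × ι)), a i⟫_ℂ = c v := fun v => by rw [hc]
  obtain ⟨b, hb⟩ : ∃ b : ι → Ell2 (Γ × ι), b = fun i => ∑ v ∈ s, ((t⁻¹ : ℝ) : ℂ) • c v • R v (ep i) :=
    ⟨_, rfl⟩
  -- pairing with `b`
  have h0 : ∀ a' : ι → Ell2 (Γ × ι), ∑ i, ⟪b i, a' i⟫_ℂ =
      ∑ v ∈ s, ((t⁻¹ : ℝ) : ℂ) * ((starRingEnd ℂ) (c v) * ∑ i, ⟪R v (ep i : Ell2 (Γ × ι)), a' i⟫_ℂ) := by
    intro a'
    simp only [hb, sum_inner, inner_smul_left]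
    rw [Finset.sum_comm]
    refine Finset.sum_congr rfl fun v _ => ?_
    rw [← Finset.mul_sum, ← Finset.mul_sum, Complex.conj_ofReal]
  have h0' : ∀ v ∈ s, ∑ i, ⟪R v (ep i : Ell2 (Γ × ι)), b i⟫_ℂ = c v := by
    intro v hv
    simp only [hb, inner_sum, inner_smul_right]
    rw [Finset.sum_comm]
    have h3 : ∀ w ∈ s, ∑ i, ((t⁻¹ : ℝ) : ℂ) * (c w * ⟪R v (ep i : Ell2 (Γ × ι)), R w (ep i)⟫_ℂ) =
        if v = w then c v else 0 := by
      intro w _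
      rw [← Finset.mul_sum, ← Finset.mul_sum]
      by_cases h : v = w
      · subst h
        rw [if_pos rfl, ar_orth_self hR]
        have ht : (t : ℂ) ≠ 0 := by exact_mod_cast hR.pos.ne'
        push_cast
        field_simp
      · rw [if_neg h, ar_orth_ne hR h, mul_zero, mul_zero]
    rw [Finset.sum_congr rfl h3, Finset.sum_ite_eq, if_pos hv]
  have hcc : ∀ v, (starRingEnd ℂ) (c v) * c v = ((‖c v‖ ^ 2 : ℝ) : ℂ) := fun v => by
    rw [mul_comm, Complex.mul_conj, Complex.normSq_eq_norm_sq]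
  have h1 : ∑ i, ⟪b i, a i⟫_ℂ = ((t⁻¹ * ∑ v ∈ s, ‖c v‖ ^ 2 : ℝ) : ℂ) := by
    rw [h0, Finset.mul_sum]
    push_cast
    refine Finset.sum_congr rfl fun v _ => ?_
    rw [hcv, hcc]
    push_cast
    rfl
  have h2 : ∑ i, ⟪b i, b i⟫_ℂ = ((t⁻¹ * ∑ v ∈ s, ‖c v‖ ^ 2 : ℝ) : ℂ) := by
    rw [h0, Finset.mul_sum]
    push_cast
    refine Finset.sum_congr rfl fun v hv => ?_
    rw [h0' v hv, hcc]
    push_cast
    rfl
  have h3 : 0 ≤ ∑ i, ‖a i - b i‖ ^ 2 := Finset.sum_nonneg fun i _ => by positivity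
  have h4 : ∑ i, ‖a i - b i‖ ^ 2 = ∑ i, ‖a i‖ ^ 2 - t⁻¹ * ∑ v ∈ s, ‖c v‖ ^ 2 := by
    have e1 : ∀ i, ‖a i - b i‖ ^ 2 = ‖a i‖ ^ 2 - 2 * (⟪b i, a i⟫_ℂ).re + (⟪b i, b i⟫_ℂ).re := by
      intro i
      rw [@norm_sub_sq ℂ]
      have e2 : (⟪b i, b i⟫_ℂ).re = ‖b i‖ ^ 2 := by
        rw [inner_self_eq_norm_sq_to_K]; norm_cast
      have e3 : RCLike.re (⟪a i, b i⟫_ℂ) = (⟪b i, a i⟫_ℂ).re := by
        rw [← inner_conj_symm]; exact Complex.conj_re _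
      rw [e2, e3]
    rw [Finset.sum_congr rfl fun i _ => e1 i, Finset.sum_add_distrib, Finset.sum_sub_distrib,
      ← Finset.mul_sum, ← Complex.re_sum, ← Complex.re_sum, h1, h2, Complex.ofReal_re]
    ring
  rw [h4] at h3
  have h5 : t⁻¹ * ∑ v ∈ s, ‖c v‖ ^ 2 ≤ ∑ i, ‖a i‖ ^ 2 := by linarith
  have h6 : ∑ v ∈ s, ‖∑ i, ⟪R v (ep i : Ell2 (Γ × ι)), a i⟫_ℂ‖ ^ 2 = ∑ v ∈ s, ‖c v‖ ^ 2 :=
    Finset.sum_congr rfl fun v _ => by rw [hcv]
  rw [h6]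
  rwa [inv_mul_le_iff₀ hR.pos] at h5

/-- Matrix coefficients `⟨η, R_v ξ⟩` vanish at infinity. -/
theorem ar_coeff_tendsto (hR : ARep t R) (η ξ : Ell2 (Γ × ι)) :
    Tendsto (fun v : Λ => ⟪R v ξ, η⟫_ℂ) cofinite (𝓝 0) := by
  classical
  have hb : ∀ x : Γ × ι, Tendsto (fun v : Λ => ⟪R v (dl x), η⟫_ℂ) cofinite (𝓝 0) := by
    intro x
    have h1 : ∀ v, ⟪R v (dl x), η⟫_ℂ = ∑ i, ⟪R v (ep i : Ell2 (Γ × ι)),
        (Pi.single x.2 (lx x.1⁻¹ η) : ι → Ell2 (Γ × ι)) i⟫_ℂ := by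
      intro v
      rw [Finset.sum_eq_single x.2, Pi.single_eq_same, ← inner_lx_left, ← (hR.ra v).app,
        ← dl_eq_lx]
      · intro i _ hi
        rw [Pi.single_eq_of_ne hi, inner_zero_right]
      · intro h
        exact absurd (Finset.mem_univ _) h
    have h2 : Summable fun v => ‖⟪R v (dl x), η⟫_ℂ‖ ^ 2 := by
      refine summable_of_sum_le (c := t * ∑ i, ‖(Pi.single x.2 (lx x.1⁻¹ η) : ι → Ell2 (Γ × ι)) i‖ ^ 2)
        (fun v => by positivity) fun s => ?_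
      simp only [h1]
      exact ar_bessel hR _ s
    have h3 := h2.tendsto_cofinite_zero
    rw [tendsto_zero_iff_norm_tendsto_zero]
    have h4 := (Real.continuous_sqrt.tendsto 0).comp h3
    rw [Real.sqrt_zero] at h4
    refine h4.congr fun y => ?_
    simp only [Function.comp_apply]
    exact Real.sqrt_sq (norm_nonneg _)
  have hs : ∀ s : Finset (Γ × ι), ∀ c : Γ × ι → ℂ,
      Tendsto (fun v : Λ => ⟪R v (∑ x ∈ s, c x • (dl x : Ell2 (Γ × ι))), η⟫_ℂ) cofinite (𝓝 0) := by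
    intro s c
    simp only [map_sum, map_smul, sum_inner, inner_smul_left]
    have : Tendsto (fun v : Λ => ∑ x ∈ s, (starRingEnd ℂ) (c x) * ⟪R v (dl x : Ell2 (Γ × ι)), η⟫_ℂ)
        cofinite (𝓝 (∑ x ∈ s, (starRingEnd ℂ) (c x) * 0)) :=
      tendsto_finsetSum s fun a _ => (hb a).const_mul _
    simpa using this
  rw [Metric.tendsto_nhds]
  intro ε hε
  obtain ⟨s, hs'⟩ := ((hasSum_dl ξ).eventually (Metric.ball_mem_nhds ξ (ε := ε / (2 * (‖η‖ + 1)))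
    (by positivity))).exists
  have h2 := (Metric.tendsto_nhds.mp (hs s fun a => ξ a)) (ε / 2) (by positivity)
  filter_upwards [h2] with v hv
  rw [dist_zero_right] at hv ⊢
  have h3 : ⟪R v ξ, η⟫_ℂ = ⟪R v (ξ - ∑ a ∈ s, ξ a • (dl a : Ell2 (Γ × ι))), η⟫_ℂ +
      ⟪R v (∑ a ∈ s, ξ a • (dl a : Ell2 (Γ × ι))), η⟫_ℂ := by
    rw [← inner_add_left, ← map_add, sub_add_cancel]
  rw [h3]
  have hs'' : ‖ξ - ∑ a ∈ s, ξ a • (dl a : Ell2 (Γ × ι))‖ < ε / (2 * (‖η‖ + 1)) := by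
    rw [← dist_eq_norm, dist_comm]
    exact hs'
  have h4 : ‖⟪R v (ξ - ∑ a ∈ s, ξ a • (dl a : Ell2 (Γ × ι))), η⟫_ℂ‖ ≤ ε / 2 := by
    calc _ ≤ ‖R v (ξ - ∑ a ∈ s, ξ a • (dl a : Ell2 (Γ × ι)))‖ * ‖η‖ := norm_inner_le_norm _ _
      _ ≤ (ε / (2 * (‖η‖ + 1))) * (‖η‖ + 1) := by
          have h5 := ar_norm_le hR v (ξ - ∑ a ∈ s, ξ a • (dl a : Ell2 (Γ × ι)))
          have h6 := norm_nonneg η
          have h7 := h5.trans hs''.le
          exact mul_le_mul h7 (by linarith) h6 (by positivity)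
      _ = ε / 2 := by field_simp
  calc _ ≤ ‖⟪R v (ξ - ∑ a ∈ s, ξ a • (dl a : Ell2 (Γ × ι))), η⟫_ℂ‖ +
        ‖⟪R v (∑ a ∈ s, ξ a • (dl a : Ell2 (Γ × ι))), η⟫_ℂ‖ := norm_add_le _ _
    _ < ε := by linarith

end bessel

section small

variable {Γ Λ ι : Type} [Group Γ] [Group Λ] [Fintype ι] {t : ℝ}
  {R : Λ → (Ell2 (Γ × ι) →L[ℂ] Ell2 (Γ × ι))} {U : Ultrafilter ℕ} {z : ℕ → Λ}

theorem cofinite_of_escape (hU : ∀ v : Λ, ∀ᶠ k in U, z k ≠ v) :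
    Tendsto z U cofinite := by
  intro s hs
  rw [mem_cofinite] at hs
  rw [mem_map]
  have h1 : ∀ᶠ k in (U : Filter ℕ), ∀ v ∈ hs.toFinset, z k ≠ v := by
    rw [Filter.eventually_all_finset]
    exact fun v _ => hU v
  filter_upwards [h1] with k hk
  by_contra hn
  exact hk (z k) (by simpa using hn) rfl

theorem coordA_tendsto (hR : ARep t R) (hU : ∀ v : Λ, ∀ᶠ k in U, z k ≠ v) (ξ : Ell2 (Γ × ι))
    (x : Γ × ι) : Tendsto (fun k => ‖R (z k) ξ x‖) U (𝓝 0) := by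
  have h1 := (ar_coeff_tendsto hR (dl x) ξ).comp (cofinite_of_escape hU)
  have h2 := h1.norm
  rw [norm_zero] at h2
  refine h2.congr fun k => ?_
  rw [Function.comp_apply, inner_dl_right, RCLike.norm_conj]

/-- Functions vanishing at infinity are small along an escaping sequence. -/
theorem smallA_of_tendsto (hR : ARep t R) (hU : ∀ v : Λ, ∀ᶠ k in U, z k ≠ v) {D : Γ → ℝ} {C : ℝ}
    (hD : ∀ g, |D g| ≤ C) (hD0 : Tendsto D cofinite (𝓝 0)) : SmallA U R z (fun _ => D) := by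
  classical
  have hC : 0 ≤ C := (abs_nonneg _).trans (hD 1)
  intro ξ
  rw [Metric.tendsto_nhds]
  intro ε hε
  obtain ⟨δ, hδ0, hδ⟩ : ∃ δ : ℝ, 0 < δ ∧ δ ^ 2 * ‖ξ‖ ^ 2 < ε ^ 2 / 2 := by
    refine ⟨ε / (2 * (‖ξ‖ + 1)), by positivity, ?_⟩
    have h1 : ε / (2 * (‖ξ‖ + 1)) * ‖ξ‖ ≤ ε / 2 := by
      rw [div_mul_eq_mul_div, div_le_div_iff₀ (by positivity) (by norm_num)]
      nlinarith [norm_nonneg ξ]
    have h2 : (ε / (2 * (‖ξ‖ + 1)) * ‖ξ‖) ^ 2 ≤ (ε / 2) ^ 2 := by gcongr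
    rw [← mul_pow]
    nlinarith
  have hfin := (Metric.tendsto_nhds.mp hD0) δ hδ0
  rw [Filter.eventually_cofinite] at hfin
  obtain ⟨s, hs⟩ : ∃ s : Finset (Γ × ι), s = hfin.toFinset ×ˢ Finset.univ := ⟨_, rfl⟩
  have hs1 : ∀ x : Γ × ι, x ∉ s → |D x.1| ≤ δ := by
    intro x hx
    by_contra hn
    push Not at hn
    refine hx ?_
    rw [hs, Finset.mem_product]
    refine ⟨?_, Finset.mem_univ _⟩
    rw [Set.Finite.mem_toFinset]
    change ¬ (dist (D x.1) 0 < δ)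
    rw [Real.dist_eq, sub_zero]
    exact not_lt.mpr hn.le
  have hlim : Tendsto (fun k => ∑ x ∈ s, C ^ 2 * ‖R (z k) ξ x‖ ^ 2) U (𝓝 0) := by
    have : Tendsto (fun k => ∑ x ∈ s, C ^ 2 * ‖R (z k) ξ x‖ ^ 2) U
        (𝓝 (∑ x ∈ s, C ^ 2 * (0 : ℝ) ^ 2)) :=
      tendsto_finsetSum s fun g _ => ((coordA_tendsto hR hU ξ g).pow 2).const_mul _
    simpa using this
  filter_upwards [(Metric.tendsto_nhds.mp hlim) (ε ^ 2 / 2) (by positivity)] with k hk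
  rw [dist_zero_right] at hk ⊢
  rw [Real.norm_of_nonneg (Finset.sum_nonneg fun g _ => by positivity)] at hk
  rw [norm_norm]
  refine abs_lt_of_sq_lt_sq' ?_ hε.le |>.2
  rw [mp, norm_mo_sq (F := fun x : Γ × ι => D x.1) (C := C) (fun x => hD _)]
  have hsum : Summable fun x : Γ × ι => δ ^ 2 * ‖R (z k) ξ x‖ ^ 2 + (if x ∈ s then
      C ^ 2 * ‖R (z k) ξ x‖ ^ 2 else 0) := by
    refine ((summable_sq (R (z k) ξ)).mul_left (δ ^ 2)).add ?_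
    exact summable_of_ne_finset_zero (s := s) fun g hg => if_neg hg
  have hle : ∀ x : Γ × ι, D x.1 ^ 2 * ‖R (z k) ξ x‖ ^ 2 ≤ δ ^ 2 * ‖R (z k) ξ x‖ ^ 2 + (if x ∈ s then
      C ^ 2 * ‖R (z k) ξ x‖ ^ 2 else 0) := by
    intro x
    by_cases hg : x ∈ s
    · rw [if_pos hg]
      have h1 : D x.1 ^ 2 ≤ C ^ 2 := by
        rw [← sq_abs (D x.1)]
        have := hD x.1
        gcongr
      have h2 : 0 ≤ δ ^ 2 * ‖R (z k) ξ x‖ ^ 2 := by positivity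
      nlinarith [sq_nonneg ‖R (z k) ξ x‖]
    · rw [if_neg hg, add_zero]
      have h1 : D x.1 ^ 2 ≤ δ ^ 2 := by
        rw [← sq_abs (D x.1)]
        have := hs1 x hg
        gcongr
      gcongr
  have hnorm : δ ^ 2 * ‖R (z k) ξ‖ ^ 2 ≤ δ ^ 2 * ‖ξ‖ ^ 2 := by
    have := ar_norm_le hR (z k) ξ
    gcongr
  calc ∑' x : Γ × ι, D x.1 ^ 2 * ‖R (z k) ξ x‖ ^ 2
      ≤ ∑' x : Γ × ι, (δ ^ 2 * ‖R (z k) ξ x‖ ^ 2 + (if x ∈ s then
          C ^ 2 * ‖R (z k) ξ x‖ ^ 2 else 0)) := by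
        refine Summable.tsum_le_tsum hle ?_ hsum
        exact Summable.of_nonneg_of_le (fun g => by positivity) hle hsum
    _ = δ ^ 2 * ‖R (z k) ξ‖ ^ 2 + ∑ x ∈ s, C ^ 2 * ‖R (z k) ξ x‖ ^ 2 := by
        rw [Summable.tsum_add ((summable_sq (R (z k) ξ)).mul_left (δ ^ 2))
          (summable_of_ne_finset_zero (s := s) fun g hg => if_neg hg), tsum_mul_left, ← norm_sq,
          tsum_eq_sum (s := s) fun g hg => if_neg hg]
        congr 1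
        exact Finset.sum_congr rfl fun g hg => if_pos hg
    _ < ε ^ 2 := by linarith

end small

/-- The exchange identity behind `J q J = 1 - q`. -/
theorem exchange {Γ ι : Type} [Group Γ] [Fintype ι] {S X : Ell2 (Γ × ι) →L[ℂ] Ell2 (Γ × ι)}
    (hS : RA S) (hX : RA X) {q : Γ → ℝ} {C : ℝ} (hq : ∀ g, |q g| ≤ C) :
    ∑ i, ⟪(S * X) (ep i), mp ι q (X (ep i))⟫_ℂ =
      ∑ i, ⟪adjoint X (ep i), mp ι (fun g => q g⁻¹) (adjoint (S * X) (ep i))⟫_ℂ := by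
  have key : ∀ {A B : Ell2 (Γ × ι) →L[ℂ] Ell2 (Γ × ι)} {p : Γ → ℝ}, (∀ g, |p g| ≤ C) →
      HasSum (fun g : Γ => ∑ i, ∑ j, (p g : ℂ) * (B (ep i)) (g, j) * (starRingEnd ℂ) ((A (ep i)) (g, j)))
        (∑ i, ⟪A (ep i), mp ι p (B (ep i))⟫_ℂ) := by
    intro A B p hp
    refine hasSum_sum fun i _ => ?_
    have h := hasSum_inner' (A (ep i)) (mp ι p (B (ep i)))
    have h2 := HasSum.prod_fiberwise h fun g => hasSum_fintype _
    refine h2.congr_fun fun g => Finset.sum_congr rfl fun j _ => ?_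
    rw [mp, mo_apply (F := fun x : Γ × ι => p x.1) (C := C) (fun x => hp _)]
  have h1 := key (A := S * X) (B := X) hq
  have h2 := key (A := adjoint X) (B := adjoint (S * X)) (p := fun g => q g⁻¹) (fun g => hq _)
  rw [← (Equiv.inv Γ).hasSum_iff] at h2
  refine h1.unique (h2.congr_fun fun g => ?_)
  rw [Function.comp_apply, Equiv.inv_apply, inv_inv, Finset.sum_comm]
  refine Finset.sum_congr rfl fun i _ => Finset.sum_congr rfl fun j _ => ?_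
  rw [(hS.mul hX).coef, hX.coef, inv_inv, Complex.conj_conj]
  ring

/-- `Π_z(q) + Π_{z⁻¹}(q) = R 1` in the row model. -/
theorem pa_total {Γ Λ ι : Type} [Group Γ] [Group Λ] [Fintype ι] [DecidableEq ι] {t : ℝ}
    {R : Λ → (Ell2 (Γ × ι) →L[ℂ] Ell2 (Γ × ι))} (hR : ARep t R) (U : Ultrafilter ℕ) (z : ℕ → Λ)
    (C : Subgroup Λ) (hzC : ∀ k, z k ∈ C) (hz : ∀ k, ∀ v ∈ C, z k * v = v * z k)
    (hU : ∀ v : Λ, ∀ᶠ k in U, z k ≠ v) (q : Γ → ℝ)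
    (hq : ∀ g, 0 ≤ q g ∧ q g ≤ 1) (hq1 : ∀ g, q g⁻¹ = 1 - q g)
    (hq2 : ∀ s t, Tendsto (fun g => q (s * g * t) - q g) cofinite (𝓝 0)) :
    PiA U R z (fun _ => q) + PiA U R (fun k => (z k)⁻¹) (fun _ => q) = R 1 := by
  have hU' : ∀ v : Λ, ∀ᶠ k in U, (z k)⁻¹ ≠ v := by
    intro v
    filter_upwards [hU v⁻¹] with k hk h
    exact hk (by rw [← h, inv_inv])
  have hqb : ∀ g, |q g| ≤ 1 := fun g => by
    rw [abs_le]; constructor <;> linarith [(hq g).1, (hq g).2]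
  have hqb' : ∀ g, |1 - q g| ≤ 1 := fun g => by
    rw [abs_le]; constructor <;> linarith [(hq g).1, (hq g).2]
  have hql : ∀ s : Γ, Tendsto (fun g => q (s * g) - q g) cofinite (𝓝 0) := fun s => by
    simpa using hq2 s 1
  have hqr : ∀ t : Γ, Tendsto (fun g => q (g * t) - q g) cofinite (𝓝 0) := fun t => by
    simpa using hq2 1 t
  have hql' : ∀ s : Γ, Tendsto (fun g => (1 - q (s * g)) - (1 - q g)) cofinite (𝓝 0) := fun s => by
    have := (hql s).neg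
    rw [neg_zero] at this
    exact this.congr fun g => by ring
  have hqr' : ∀ t : Γ, Tendsto (fun g => (1 - q (g * t)) - (1 - q g)) cofinite (𝓝 0) := fun t => by
    have := (hqr t).neg
    rw [neg_zero] at this
    exact this.congr fun g => by ring
  have hb2 : ∀ (D : Γ → ℝ), (∀ g, |D g| ≤ 1) → ∀ g h, |D g - D h| ≤ 1 + 1 := fun D hD g h =>
    (abs_sub _ _).trans (add_le_add (hD _) (hD _))
  obtain ⟨T, hT⟩ : ∃ T, T = PiA U R (fun k => (z k)⁻¹) (fun _ => q) := ⟨_, rfl⟩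
  obtain ⟨T', hT'⟩ : ∃ T', T' = PiA U R z (fun _ g => 1 - q g) := ⟨_, rfl⟩
  have hTl : RA T := by
    rw [hT]
    exact pa_ra hR (fun _ => hqb) fun s =>
      smallA_of_tendsto hR hU' (fun g => hb2 q hqb _ _) (hql s)
  have hTl' : RA T' := by
    rw [hT']
    exact pa_ra hR (F := fun _ g => 1 - q g) (fun _ => hqb') fun s =>
      smallA_of_tendsto hR hU (fun g => hb2 (fun g => 1 - q g) hqb' _ _) (hql' s)
  have hzi : ∀ k, ∀ v ∈ C, (z k)⁻¹ * v = v * (z k)⁻¹ := by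
    intro k v hv
    rw [inv_mul_eq_iff_eq_mul, ← mul_assoc, hz k v hv, mul_assoc, mul_inv_cancel, mul_one]
  have hTc : ∀ v ∈ C, T * R v = R v * T := by
    intro v hv
    rw [hT]
    exact pa_comm hR (fun _ => hqb) v (fun k => hzi k v hv) fun s =>
      smallA_of_tendsto hR hU' (fun g => hb2 q hqb _ _) (hqr s)
  have hTc' : ∀ v ∈ C, T' * R v = R v * T' := by
    intro v hv
    rw [hT']
    exact pa_comm hR (F := fun _ g => 1 - q g) (fun _ => hqb') v (fun k => hz k v hv) fun s =>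
      smallA_of_tendsto hR hU (fun g => hb2 (fun g => 1 - q g) hqb' _ _) (hqr' s)
  -- the key computation
  have hkey : ∀ S : Ell2 (Γ × ι) →L[ℂ] Ell2 (Γ × ι), RA S → (∀ v ∈ C, S * R v = R v * S) →
      trA (adjoint S * T) = trA (adjoint S * T') := by
    intro S hS hSc
    have hl : Tendsto (fun k => ∑ i, ⟪R (z k)⁻¹ (S (ep i)), mp ι q (R (z k)⁻¹ (ep i))⟫_ℂ) U
        (𝓝 (trA (adjoint S * T))) := by
      have h1 := tendsto_finsetSum Finset.univ fun i (_ : i ∈ Finset.univ) =>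
        pa_spec (U := U) (z := fun k => (z k)⁻¹) (F := fun _ => q) hR (fun _ => hqb)
          (S (ep i)) (ep i)
      have h2 : trA (adjoint S * T) = ∑ i, ⟪S (ep i),
          PiA U R (fun k => (z k)⁻¹) (fun _ => q) (ep i)⟫_ℂ := by
        rw [trA, hT]
        refine Finset.sum_congr rfl fun i _ => ?_
        rw [mul_ap, adjoint_inner_right]
      rw [h2]
      exact h1
    have hr : Tendsto (fun k => ∑ i, ⟪R (z k) (ep i : Ell2 (Γ × ι)),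
        mp ι (fun g => 1 - q g) (R (z k) (adjoint S (ep i)))⟫_ℂ) U (𝓝 (trA (adjoint S * T'))) := by
      have h1 := tendsto_finsetSum Finset.univ fun i (_ : i ∈ Finset.univ) =>
        pa_spec (U := U) (z := z) (F := fun _ g => 1 - q g) hR (fun _ => hqb')
          (ep i) (adjoint S (ep i))
      have h2 : trA (adjoint S * T') = ∑ i, ⟪(ep i : Ell2 (Γ × ι)),
          PiA U R z (fun _ g => 1 - q g) (adjoint S (ep i))⟫_ℂ := by
        rw [trA_comm (ra_adjoint hS) hTl', trA, hT']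
        rfl
      rw [h2]
      exact h1
    refine tendsto_nhds_unique hl (hr.congr fun k => ?_)
    have hc : S * R (z k)⁻¹ = R (z k)⁻¹ * S := hSc _ (inv_mem (hzC k))
    have e1 : ∀ i, R (z k)⁻¹ (S (ep i)) = (S * R (z k)⁻¹) (ep i : Ell2 (Γ × ι)) := fun i => by
      rw [hc]; rfl
    have e2 := exchange hS (hR.ra (z k)⁻¹) hqb
    have e3 : adjoint (S * R (z k)⁻¹) = R (z k) * adjoint S := by
      rw [adjoint_mul, hR.adj, inv_inv]
    have e4 : (fun g => q g⁻¹) = fun g => 1 - q g := by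
      funext g; rw [hq1]
    rw [hR.adj, inv_inv, e3, e4] at e2
    simp only [e1]
    rw [e2]
    rfl
  have hTT : T = T' := by
    refine hTl.ext_tr hTl' (hkey _ (hTl.sub hTl') fun v hv => ?_)
    rw [sub_mul, mul_sub, hTc v hv, hTc' v hv]
  rw [← hT, hTT, hT', ← pa_add (F := fun _ => q) (F' := fun _ g => 1 - q g) hR (fun _ => hqb)
    (fun _ => hqb')]
  have h6 : (fun (_ : ℕ) (g : Γ) => q g + (1 - q g)) = fun _ _ => (1 : ℝ) := by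
    funext k g; ring
  rw [h6]
  exact pa_one hR

end Vale.Agent.P092.H967
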