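import Vale.Agent.P092.H553.Lim

/-!
P092 (helper967): block [B3].  Mass escapes finite sets along an escaping sequence `z_k`, and
`Π_z(q) + Π_{z⁻¹}(q) = 1` for a weight `q` with `q(g⁻¹) = 1 - q(g)`.
-/

set_option linter.all false

open scoped InnerProductSpace
open Filter Topology ContinuousLinearMap

namespace Vale.Agent.P092.H967

open Vale.Agent.P092.H160 Vale.Agent.P092.H553

section coeff

variable {G : Type} [Group G] {H : Type} [NormedAddCommGroup H] [InnerProductSpace ℂ H]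
    [CompleteSpace H] {π : G →* (H →L[ℂ] H)} {ξ : H}

/-- Matrix coefficients of a regular representation vanish at infinity. -/
theorem coeff_tendsto_reg (h : RegRep π ξ) (u v : H) :
    Tendsto (fun g : G => ⟪u, π g v⟫_ℂ) cofinite (𝓝 0) := by
  have hb : ∀ a : G, Tendsto (fun g : G => ⟪u, π g (π a ξ)⟫_ℂ) cofinite (𝓝 0) := by
    intro a
    have h1 : Tendsto (fun g : G => ⟪u, π g ξ⟫_ℂ) cofinite (𝓝 0) := by
      have h2 := (h.summable_coeff u).tendsto_cofinite_zero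
      rw [tendsto_zero_iff_norm_tendsto_zero]
      have h3 := (Real.continuous_sqrt.tendsto 0).comp h2
      rw [Real.sqrt_zero] at h3
      refine h3.congr fun y => ?_
      simp only [Function.comp_apply]
      rw [Real.sqrt_sq (norm_nonneg _), ← inner_conj_symm, RCLike.norm_conj]
    refine (h1.comp (mul_left_injective a).tendsto_cofinite).congr fun g => ?_
    rw [Function.comp_apply, map_mul, mul_ap]
  have hs : ∀ s : Finset G, ∀ c : G → ℂ,
      Tendsto (fun g : G => ⟪u, π g (∑ a ∈ s, c a • π a ξ)⟫_ℂ) cofinite (𝓝 0) := by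
    intro s c
    simp only [map_sum, map_smul, inner_sum, inner_smul_right]
    have : Tendsto (fun g : G => ∑ a ∈ s, c a * ⟪u, π g (π a ξ)⟫_ℂ)
        cofinite (𝓝 (∑ a ∈ s, c a * 0)) :=
      tendsto_finsetSum s fun a _ => (hb a).const_mul _
    simpa using this
  rw [Metric.tendsto_nhds]
  intro ε hε
  have h0 : HasSum (fun a => h.basis.repr v a • π a ξ) v := by
    have := h.basis.hasSum_repr v
    simpa only [h.basis_apply] using this
  obtain ⟨s, hs'⟩ := (h0.eventually (Metric.ball_mem_nhds v (ε := ε / (2 * (‖u‖ + 1)))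
    (by positivity))).exists
  have h2 := (Metric.tendsto_nhds.mp (hs s fun a => h.basis.repr v a)) (ε / 2) (by positivity)
  filter_upwards [h2] with x hx
  rw [dist_zero_right] at hx ⊢
  have h3 : ⟪u, π x v⟫_ℂ = ⟪u, π x (v - ∑ a ∈ s, h.basis.repr v a • π a ξ)⟫_ℂ +
      ⟪u, π x (∑ a ∈ s, h.basis.repr v a • π a ξ)⟫_ℂ := by
    rw [← inner_add_right, ← map_add, sub_add_cancel]
  rw [h3]
  have hs'' : ‖v - ∑ a ∈ s, h.basis.repr v a • π a ξ‖ < ε / (2 * (‖u‖ + 1)) := by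
    rw [← dist_eq_norm, dist_comm]
    exact hs'
  have h4 : ‖⟪u, π x (v - ∑ a ∈ s, h.basis.repr v a • π a ξ)⟫_ℂ‖ ≤ ε / 2 := by
    calc ‖⟪u, π x (v - ∑ a ∈ s, h.basis.repr v a • π a ξ)⟫_ℂ‖
        ≤ ‖u‖ * ‖π x (v - ∑ a ∈ s, h.basis.repr v a • π a ξ)‖ := norm_inner_le_norm _ _
      _ ≤ (‖u‖ + 1) * (ε / (2 * (‖u‖ + 1))) := by
          rw [h.norm_map]
          have := norm_nonneg u
          gcongr
          linarith
      _ = ε / 2 := by field_simp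
  calc _ ≤ ‖⟪u, π x (v - ∑ a ∈ s, h.basis.repr v a • π a ξ)⟫_ℂ‖ +
        ‖⟪u, π x (∑ a ∈ s, h.basis.repr v a • π a ξ)⟫_ℂ‖ := norm_add_le _ _
    _ < ε := by linarith

end coeff

section

variable {Γ Λ : Type} [Group Γ] [Group Λ] {V : Λ →* (Ell2 Γ →L[ℂ] Ell2 Γ)}
  {U : Ultrafilter ℕ} {z : ℕ → Λ}

theorem tendsto_cofinite_of_escape (hU : ∀ v : Λ, ∀ᶠ k in U, z k ≠ v) :
    Tendsto z U cofinite := by
  intro s hs
  rw [mem_cofinite] at hs
  rw [mem_map]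
  have h1 : ∀ᶠ k in (U : Filter ℕ), ∀ v ∈ hs.toFinset, z k ≠ v := by
    rw [Filter.eventually_all_finset]
    exact fun v _ => hU v
  filter_upwards [h1] with k hk
  by_contra hn
  exact hk (z k) (by simpa using hn) rfl

/-- Coordinates of `W(z_k) ξ` tend to zero. -/
theorem coord_tendsto (hV : Frame V) (hU : ∀ v : Λ, ∀ᶠ k in U, z k ≠ v) (ξ : Ell2 Γ) (g : Γ) :
    Tendsto (fun k => ‖Wr V (z k) ξ g‖) U (𝓝 0) := by
  have h1 := (coeff_tendsto_reg (regRep_W hV) (dl g) ξ).comp (tendsto_cofinite_of_escape hU)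
  have h2 := h1.norm
  rw [norm_zero] at h2
  refine h2.congr fun k => ?_
  rw [Function.comp_apply, inner_dl]

/-- Functions vanishing at infinity are small along an escaping sequence. -/
theorem small_of_tendsto (hV : Frame V) (hU : ∀ v : Λ, ∀ᶠ k in U, z k ≠ v) {D : Γ → ℝ} {C : ℝ}
    (hD : ∀ g, |D g| ≤ C) (hD0 : Tendsto D cofinite (𝓝 0)) : Small U V z (fun _ => D) := by
  classical
  have hC : 0 ≤ C := (abs_nonneg _).trans (hD 1)
  intro ξ
  rw [Metric.tendsto_nhds]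
  intro ε hε
  obtain ⟨δ, hδ0, hδ⟩ : ∃ δ : ℝ, 0 < δ ∧ δ ^ 2 * ‖ξ‖ ^ 2 < ε ^ 2 / 2 := by
    refine ⟨ε / (2 * (‖ξ‖ + 1)), by positivity, ?_⟩
    have h1 : ε / (2 * (‖ξ‖ + 1)) * ‖ξ‖ ≤ ε / 2 := by
      rw [div_mul_eq_mul_div, div_le_div_iff₀ (by positivity) (by norm_num)]
      nlinarith [norm_nonneg ξ]
    have h2 : (ε / (2 * (‖ξ‖ + 1)) * ‖ξ‖) ^ 2 ≤ (ε / 2) ^ 2 := by gcongr
    rw [← mul_pow]
    nlinarith
  have hfin := (Metric.tendsto_nhds.mp hD0) δ hδ0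
  rw [Filter.eventually_cofinite] at hfin
  set s := hfin.toFinset with hs
  have hs1 : ∀ g, g ∉ s → |D g| ≤ δ := by
    intro g hg
    by_contra hn
    push Not at hn
    refine hg ?_
    rw [hs, Set.Finite.mem_toFinset]
    change ¬ (dist (D g) 0 < δ)
    rw [Real.dist_eq, sub_zero]
    exact not_lt.mpr hn.le
  have hlim : Tendsto (fun k => ∑ g ∈ s, C ^ 2 * ‖Wr V (z k) ξ g‖ ^ 2) U (𝓝 0) := by
    have : Tendsto (fun k => ∑ g ∈ s, C ^ 2 * ‖Wr V (z k) ξ g‖ ^ 2) U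
        (𝓝 (∑ g ∈ s, C ^ 2 * (0 : ℝ) ^ 2)) :=
      tendsto_finsetSum s fun g _ => ((coord_tendsto hV hU ξ g).pow 2).const_mul _
    simpa using this
  filter_upwards [(Metric.tendsto_nhds.mp hlim) (ε ^ 2 / 2) (by positivity)] with k hk
  rw [dist_zero_right] at hk ⊢
  rw [Real.norm_of_nonneg (Finset.sum_nonneg fun g _ => by positivity)] at hk
  rw [norm_norm]
  refine abs_lt_of_sq_lt_sq' ?_ hε.le |>.2
  rw [norm_mo_sq hD]
  have hsum : Summable fun g => δ ^ 2 * ‖Wr V (z k) ξ g‖ ^ 2 + (if g ∈ s then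
      C ^ 2 * ‖Wr V (z k) ξ g‖ ^ 2 else 0) := by
    refine ((summable_sq (Wr V (z k) ξ)).mul_left (δ ^ 2)).add ?_
    exact summable_of_ne_finset_zero (s := s) fun g hg => if_neg hg
  have hle : ∀ g, D g ^ 2 * ‖Wr V (z k) ξ g‖ ^ 2 ≤ δ ^ 2 * ‖Wr V (z k) ξ g‖ ^ 2 + (if g ∈ s then
      C ^ 2 * ‖Wr V (z k) ξ g‖ ^ 2 else 0) := by
    intro g
    by_cases hg : g ∈ s
    · rw [if_pos hg]
      have h1 : D g ^ 2 ≤ C ^ 2 := by
        rw [← sq_abs (D g)]
        have := hD g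
        gcongr
      have h2 : 0 ≤ δ ^ 2 * ‖Wr V (z k) ξ g‖ ^ 2 := by positivity
      nlinarith [sq_nonneg ‖Wr V (z k) ξ g‖]
    · rw [if_neg hg, add_zero]
      have h1 : D g ^ 2 ≤ δ ^ 2 := by
        rw [← sq_abs (D g)]
        have := hs1 g hg
        gcongr
      gcongr
  calc ∑' g, D g ^ 2 * ‖Wr V (z k) ξ g‖ ^ 2
      ≤ ∑' g, (δ ^ 2 * ‖Wr V (z k) ξ g‖ ^ 2 + (if g ∈ s then
          C ^ 2 * ‖Wr V (z k) ξ g‖ ^ 2 else 0)) := by
        refine Summable.tsum_le_tsum hle ?_ hsum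
        exact Summable.of_nonneg_of_le (fun g => by positivity) hle hsum
    _ = δ ^ 2 * ‖ξ‖ ^ 2 + ∑ g ∈ s, C ^ 2 * ‖Wr V (z k) ξ g‖ ^ 2 := by
        rw [Summable.tsum_add ((summable_sq (Wr V (z k) ξ)).mul_left (δ ^ 2))
          (summable_of_ne_finset_zero (s := s) fun g hg => if_neg hg), tsum_mul_left, ← norm_sq,
          norm_W hV, tsum_eq_sum (s := s) fun g hg => if_neg hg]
        congr 1
        exact Finset.sum_congr rfl fun g hg => if_pos hg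
    _ < ε ^ 2 := by linarith

/-- `J T δ_e = T* δ_e` for `T` in the commutant of the left regular representation. -/
theorem jj_of_cmm_lam {T : Ell2 Γ →L[ℂ] Ell2 Γ} (hT : Cmm lamH T) :
    jj (T (dl 1)) = adjoint T (dl 1) := by
  ext g
  have h1 : T (dl g) = lam g (T (dl 1)) := by
    rw [dl_eq_lam g]; exact hT.apply g (dl 1)
  rw [jj_apply, ← inner_dl, ← inner_dl, adjoint_inner_right, inner_conj_symm, h1,
    dl_eq_lam g⁻¹, ← adjoint_lam, adjoint_inner_right]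

theorem pl_lam_cmm (hV : Frame V) (hU : ∀ v : Λ, ∀ᶠ k in U, z k ≠ v) {q : Γ → ℝ} {C : ℝ}
    (hq : ∀ g, |q g| ≤ C)
    (hq2 : ∀ s : Γ, Tendsto (fun g => q (s * g) - q g) cofinite (𝓝 0)) :
    Cmm lamH (PiL U V z (fun _ => q)) := by
  intro s
  ext1 ξ
  rw [mul_ap, mul_ap, lamH_apply]
  refine (pl_lam hV (F := fun _ => q) (F' := fun _ => q) (fun _ => hq) (fun _ => hq) s ?_ ξ).symm
  refine small_of_tendsto hV hU (C := C + C) (fun g => ?_) (hq2 s⁻¹)
  exact (abs_sub _ _).trans (add_le_add (hq _) (hq _))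

theorem pl_W_comm (hV : Frame V) (hU : ∀ v : Λ, ∀ᶠ k in U, z k ≠ v) {q : Γ → ℝ} {C : ℝ}
    (hq : ∀ g, |q g| ≤ C)
    (hq2 : ∀ t : Γ, Tendsto (fun g => q (g * t) - q g) cofinite (𝓝 0)) (v : Λ)
    (hv : ∀ k, z k * v = v * z k) :
    PiL U V z (fun _ => q) * Wr V v = Wr V v * PiL U V z (fun _ => q) := by
  refine pl_comm hV (fun _ => hq) v hv fun t => ?_
  refine small_of_tendsto hV hU (C := C + C) (fun g => ?_) (hq2 t)
  exact (abs_sub _ _).trans (add_le_add (hq _) (hq _))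

/-- `V_v T = T V_v` for `T` in the commutant of the left regular representation. -/
theorem V_comm_of_cmm_lam (hV : Frame V) {T : Ell2 Γ →L[ℂ] Ell2 Γ} (hT : Cmm lamH T) (v : Λ) :
    V v * T = T * V v := by
  have hc : ∀ g s : Γ, lamH g * rhoH s = rhoH s * lamH g := fun g s => (rho_lam s g).symm
  exact RegRep.commute regRep_lam regRep_rho hc (cmm_rho_V hV v) hT

theorem V_eq_W_of_comm (hV : Frame V) {T : Ell2 Γ →L[ℂ] Ell2 Γ} (hT : Cmm lamH T) (v : Λ)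
    (hv : T * Wr V v⁻¹ = Wr V v⁻¹ * T) : V v (T (dl 1)) = Wr V v⁻¹ (T (dl 1)) := by
  have h1 : V v (T (dl 1)) = T (V v (dl 1)) := by
    rw [← mul_ap, V_comm_of_cmm_lam hV hT, mul_ap]
  have h2 : V v (dl 1) = Wr V v⁻¹ (dl 1) := by rw [Wr_xi hV, inv_inv]
  rw [h1, h2, ← mul_ap, hv, mul_ap]

theorem pl_one (hV : Frame V) : PiL U V z (fun _ _ => (1 : ℝ)) = 1 := by
  refine op_ext_inner fun ξ η => ?_
  refine tendsto_nhds_unique (pl_spec hV (C := 1) (fun k g => by simp) ξ η) ?_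
  have h1 : ∀ k, ⟪Wr V (z k) ξ, mo (fun _ => (1 : ℝ)) (Wr V (z k) η)⟫_ℂ = ⟪ξ, η⟫_ℂ := by
    intro k
    rw [mo_one, inner_W hV]
  simp only [h1]
  exact tendsto_const_nhds

end

/-- `Π_z(q) + Π_{z⁻¹}(q) = 1`. -/
theorem pl_total {Γ Λ : Type} [Group Γ] [Group Λ] {V : Λ →* (Ell2 Γ →L[ℂ] Ell2 Γ)}
    (hV : Frame V) (U : Ultrafilter ℕ) (z : ℕ → Λ) (C : Subgroup Λ) (hzC : ∀ k, z k ∈ C)
    (hz : ∀ k, ∀ v ∈ C, z k * v = v * z k) (hU : ∀ v : Λ, ∀ᶠ k in U, z k ≠ v) (q : Γ → ℝ)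
    (hq : ∀ g, 0 ≤ q g ∧ q g ≤ 1) (hq1 : ∀ g, q g⁻¹ = 1 - q g)
    (hq2 : ∀ s t, Tendsto (fun g => q (s * g * t) - q g) cofinite (𝓝 0)) :
    PiL U V z (fun _ => q) + PiL U V (fun k => (z k)⁻¹) (fun _ => q) = 1 := by
  have hU' : ∀ v : Λ, ∀ᶠ k in U, (z k)⁻¹ ≠ v := by
    intro v
    filter_upwards [hU v⁻¹] with k hk h
    exact hk (by rw [← h, inv_inv])
  have hqb : ∀ g, |q g| ≤ 1 := fun g => by
    rw [abs_le]; constructor <;> linarith [(hq g).1, (hq g).2]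
  have hqb' : ∀ g, |1 - q g| ≤ 1 := fun g => by
    rw [abs_le]; constructor <;> linarith [(hq g).1, (hq g).2]
  have hql : ∀ s : Γ, Tendsto (fun g => q (s * g) - q g) cofinite (𝓝 0) := fun s => by
    simpa using hq2 s 1
  have hqr : ∀ t : Γ, Tendsto (fun g => q (g * t) - q g) cofinite (𝓝 0) := fun t => by
    simpa using hq2 1 t
  have hql' : ∀ s : Γ, Tendsto (fun g => (1 - q (s * g)) - (1 - q g)) cofinite (𝓝 0) := fun s => by
    have := (hql s).neg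
    rw [neg_zero] at this
    exact this.congr fun g => by ring
  have hqr' : ∀ t : Γ, Tendsto (fun g => (1 - q (g * t)) - (1 - q g)) cofinite (𝓝 0) := fun t => by
    have := (hqr t).neg
    rw [neg_zero] at this
    exact this.congr fun g => by ring
  obtain ⟨T, hT⟩ : ∃ T, T = PiL U V (fun k => (z k)⁻¹) (fun _ => q) := ⟨_, rfl⟩
  obtain ⟨T', hT'⟩ : ∃ T', T' = PiL U V z (fun _ g => 1 - q g) := ⟨_, rfl⟩
  have hTl : Cmm lamH T := by
    rw [hT]; exact pl_lam_cmm hV hU' hqb hql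
  have hTl' : Cmm lamH T' := by
    rw [hT']; exact pl_lam_cmm (q := fun g => 1 - q g) hV hU hqb' hql'
  have hzi : ∀ k, ∀ v ∈ C, (z k)⁻¹ * v = v * (z k)⁻¹ := by
    intro k v hv
    rw [inv_mul_eq_iff_eq_mul, ← mul_assoc, hz k v hv, mul_assoc, mul_inv_cancel, mul_one]
  -- vectors of the closed subspace `Z`
  have hTZ : ∀ v ∈ C, V v (T (dl 1)) = Wr V v⁻¹ (T (dl 1)) := by
    intro v hv
    refine V_eq_W_of_comm hV hTl v ?_
    rw [hT]
    exact pl_W_comm hV hU' hqb hqr v⁻¹ fun k => hzi k v⁻¹ (inv_mem hv)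
  have hTZ' : ∀ v ∈ C, V v (T' (dl 1)) = Wr V v⁻¹ (T' (dl 1)) := by
    intro v hv
    refine V_eq_W_of_comm hV hTl' v ?_
    rw [hT']
    exact pl_W_comm (q := fun g => 1 - q g) hV hU hqb' hqr' v⁻¹ fun k => hz k v⁻¹ (inv_mem hv)
  -- the key computation
  have hkey : ∀ ζ : Ell2 Γ, (∀ v ∈ C, V v ζ = Wr V v⁻¹ ζ) →
      ⟪ζ, T (dl 1)⟫_ℂ = ⟪ζ, T' (dl 1)⟫_ℂ := by
    intro ζ hζ
    have hjζ : ∀ v ∈ C, Wr V v⁻¹ (jj ζ) = V v (jj ζ) := by
      intro v hv
      have h1 := congrArg jj (hζ v⁻¹ (inv_mem hv))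
      rw [inv_inv, Wr_apply, jj_jj] at h1
      rw [Wr_apply, jj_jj, h1]
    -- `⟪ζ, T' δ⟫ = ⟪T δ, J ζ⟫`
    have h1 : ⟪ζ, T' (dl 1)⟫_ℂ = ⟪T (dl 1), jj ζ⟫_ℂ := by
      rw [hT', hT]
      refine tendsto_nhds_unique (pl_spec (U := U) (z := z) (F := fun _ g => 1 - q g) hV
        (fun _ => hqb') ζ (dl 1)) ?_
      have h2 := pl_spec (U := U) (z := fun k => (z k)⁻¹) (F := fun _ => q) hV (fun _ => hqb)
        (jj ζ) (dl 1)
      have h3 := (Complex.continuous_conj.tendsto _).comp h2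
      rw [inner_conj_symm] at h3
      refine h3.congr fun k => ?_
      rw [Function.comp_apply, inner_conj_symm]
      have e1 : Wr V (z k)⁻¹ (jj ζ) = V (z k) (jj ζ) := hjζ _ (hzC k)
      have e2 : Wr V (z k)⁻¹ (dl 1) = V (z k) (dl 1) := by rw [Wr_xi hV, inv_inv]
      have e3 : mo q (V (z k) (dl 1)) = jj (mo (fun g => 1 - q g) (Wr V (z k) (dl 1))) := by
        rw [jj_mo hqb']
        have e4 : (fun g => 1 - q g⁻¹) = q := by
          funext g
          rw [hq1 g]; ring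
        rw [e4, Wr_apply, jj_jj, jj_dl, inv_one]
      have e5 : V (z k) (jj ζ) = jj (Wr V (z k) ζ) := by rw [Wr_apply, jj_jj]
      rw [e1, e2, e3, e5, inner_jj]
    have h4 : jj (T (dl 1)) = T (dl 1) := by
      rw [jj_of_cmm_lam hTl]
      have h5 : adjoint T = T := by
        rw [eq_comm, ContinuousLinearMap.eq_adjoint_iff]
        intro x y
        rw [hT]
        exact pl_sym hV (fun _ => hqb) x y
      rw [h5]
    rw [h1, ← inner_jj, h4]
  have hTT : T (dl 1) = T' (dl 1) := by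
    have h1 := hkey (T (dl 1) - T' (dl 1)) fun v hv => by
      rw [map_sub, map_sub, hTZ v hv, hTZ' v hv]
    rw [← sub_eq_zero, ← inner_sub_right] at h1
    exact sub_eq_zero.mp (inner_self_eq_zero.mp h1)
  have hTT' : T = T' := regRep_lam.ext_cmm hTl hTl' hTT
  rw [← hT, hTT', hT', ← pl_add (F := fun _ => q) (F' := fun _ g => 1 - q g) hV (fun _ => hqb)
    (fun _ => hqb')]
  have h6 : (fun (_ : ℕ) (g : Γ) => q g + (1 - q g)) = fun _ _ => (1 : ℝ) := by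
    funext k g; ring
  rw [h6]
  exact pl_one hV

end Vale.Agent.P092.H967
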