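import Mathlib

open Filter Topology

namespace Vale.Agent.P092.H967

/-- An injection of fields which preserves all ratios `(c - a) / (b - a)` is a ring
homomorphism. -/
theorem ringHom_of_ratio {k k' : Type*} [Field k] [Field k'] (hk : ∃ x : k, x ≠ 0 ∧ x ≠ 1)
    (φ : k → k') (h0 : φ 0 = 0) (h1 : φ 1 = 1) (hi : Function.Injective φ)
    (hr : ∀ a b c, a ≠ b → (φ c - φ a) / (φ b - φ a) = φ ((c - a) / (b - a))) :
    ∃ f : k →+* k', ∀ x, f x = φ x := by
  have hne : ∀ x, x ≠ 0 → φ x ≠ 0 := fun x hx h => hx (hi (h.trans h0.symm))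
  have hdiv : ∀ b c, b ≠ 0 → φ (c / b) = φ c / φ b := by
    intro b c hb
    have := hr 0 b c hb.symm
    simpa [h0] using this.symm
  have hmul : ∀ x y, φ (x * y) = φ x * φ y := by
    intro x y
    by_cases hy : y = 0
    · simp [hy, h0]
    · have h2 := hdiv (y⁻¹) x (inv_ne_zero hy)
      have h3 : φ (y⁻¹) = (φ y)⁻¹ := by
        have := hdiv y 1 hy
        simpa [h1] using this
      rw [div_inv_eq_mul, h3, div_inv_eq_mul] at h2
      exact h2
  have key : ∀ a b c, a ≠ b → (φ c - φ a) * φ (b - a) = φ (c - a) * (φ b - φ a) := by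
    intro a b c hab
    have hb : b - a ≠ 0 := sub_ne_zero.2 hab.symm
    have hφ : φ b - φ a ≠ 0 := sub_ne_zero.2 fun h => hab (hi h).symm
    have h2 := hr a b c hab
    rw [hdiv (b - a) (c - a) hb, div_eq_div_iff hφ (hne _ hb)] at h2
    exact h2
  have hneg : ∀ a, φ (-a) = φ (-1) * φ a := by
    intro a
    rw [← hmul, neg_one_mul]
  have hA : ∀ a b, a ≠ 0 → φ (b - a) = -φ (-1) * (φ b - φ a) := by
    intro a b ha
    by_cases hab : a = b
    · simp [hab, h0]
    have h := key a b 0 hab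
    rw [h0, zero_sub, zero_sub, hneg a] at h
    have h2 : φ a * (φ (b - a) + φ (-1) * (φ b - φ a)) = 0 := by linear_combination -h
    rcases mul_eq_zero.1 h2 with h' | h'
    · exact absurd h' (hne a ha)
    · linear_combination h'
  have hm1 : φ (-1) = -1 := by
    obtain ⟨x, hx0, hx1⟩ := hk
    have e1 := hA 1 x one_ne_zero
    have e2 := hA x 1 hx0
    have e3 : φ (1 - x) = φ (-1) * φ (x - 1) := by rw [← hmul]; congr 1; ring
    have hφ : φ x - φ 1 ≠ 0 := sub_ne_zero.2 fun h => hx1 (hi h)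
    have hφm : φ (-1) ≠ 0 := hne _ (by simp)
    rw [e1, e2] at e3
    have h4 : (φ (-1) * (φ x - φ 1)) * (φ (-1) + 1) = 0 := by linear_combination e3
    rcases mul_eq_zero.1 h4 with h' | h'
    · exact absurd h' (mul_ne_zero hφm hφ)
    · linear_combination h'
  have hsub : ∀ a b, φ (b - a) = φ b - φ a := by
    intro a b
    by_cases ha : a = 0
    · simp [ha, h0]
    · rw [hA a b ha, hm1]; ring
  have hadd : ∀ x y, φ (x + y) = φ x + φ y := by
    intro x y
    have h2 := hsub (-y) x
    rw [sub_neg_eq_add, hneg y, hm1] at h2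
    rw [h2]; ring
  exact ⟨{ toFun := φ, map_one' := h1, map_mul' := hmul, map_zero' := h0, map_add' := hadd },
    fun x => rfl⟩

/-- A continuous homomorphism of normed fields is unbounded along unbounded sequences. -/
theorem norm_tendsto {k k' : Type*} [NormedField k] [NormedField k'] (f : k →+* k')
    (hf : Continuous f) {ι : Type*} {l : Filter ι} {x : ι → k}
    (hx : Tendsto (fun i => ‖x i‖) l atTop) : Tendsto (fun i => ‖f (x i)‖) l atTop := by
  have h1 : Tendsto (fun i => (x i)⁻¹) l (𝓝 0) := by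
    rw [tendsto_zero_iff_norm_tendsto_zero]
    have h := hx.inv_tendsto_atTop
    refine h.congr fun i => ?_
    simp
  have h2 : Tendsto (fun i => ‖f (x i)‖⁻¹) l (𝓝 0) := by
    have h3 := (hf.tendsto 0).comp h1
    rw [map_zero, tendsto_zero_iff_norm_tendsto_zero] at h3
    simpa [Function.comp_def] using h3
  have h4 : ∀ᶠ i in l, 0 < ‖f (x i)‖⁻¹ := by
    filter_upwards [hx.eventually_gt_atTop 0] with i hi
    have : x i ≠ 0 := norm_pos_iff.1 hi
    exact inv_pos.2 (norm_pos_iff.2 ((map_ne_zero f).2 this))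
  have h5 := (tendsto_nhdsWithin_iff.2 ⟨h2, h4⟩).inv_tendsto_nhdsGT_zero
  refine h5.congr fun i => ?_
  simp

end Vale.Agent.P092.H967
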