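import Mathlib

namespace Vale.Agent.P092.H967

/-- Induction over minimal galleries: a symmetric relation which holds for equal and adjacent
chambers, and for the ends of a minimal gallery of length `n + 1 ≥ 2` whenever it holds for all
pairs at distance `≤ n`, holds for all pairs of chambers. -/
theorem ind_gallery {C : Type*} (Γ : SimpleGraph C) (hc : Γ.Connected) (P : C → C → Prop)
    (h0 : ∀ x, P x x) (h1 : ∀ x y, Γ.Adj x y → P x y)
    (step : ∀ n ≥ 1, ∀ c : ℕ → C, (∀ i ≤ n, Γ.Adj (c i) (c (i + 1))) →
      (∀ i j, i ≤ j → j ≤ n + 1 → Γ.dist (c i) (c j) = j - i) →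
      (∀ x y, Γ.dist x y ≤ n → P x y) → P (c 0) (c (n + 1))) : ∀ x y, P x y := by
  have main : ∀ n, ∀ x y, Γ.dist x y ≤ n → P x y := by
    intro n
    induction n with
    | zero =>
      intro x y h
      have : x = y := (hc.dist_eq_zero_iff).1 (Nat.le_zero.1 h)
      exact this ▸ h0 x
    | succ n ih =>
      intro x y h
      rcases Nat.lt_or_eq_of_le h with h | h
      · exact ih x y (Nat.lt_succ_iff.1 h)
      rcases Nat.eq_zero_or_pos n with rfl | hn
      · exact h1 x y (SimpleGraph.dist_eq_one_iff_adj.1 (by simpa using h))
      obtain ⟨p, hp⟩ := hc.exists_walk_length_eq_dist x y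
      have hlen : p.length = n + 1 := hp.trans h
      have hadj : ∀ i ≤ n, Γ.Adj (p.getVert i) (p.getVert (i + 1)) := fun i hi =>
        p.adj_getVert_succ (by omega)
      have hle : ∀ i j, i ≤ j → j ≤ n + 1 → Γ.dist (p.getVert i) (p.getVert j) ≤ j - i := by
        intro i j hij
        induction j, hij using Nat.le_induction with
        | base => intro _; simp
        | succ j hij ihj =>
          intro hj
          have h2 := ihj (by omega)
          have h3 := hc.dist_triangle (u := p.getVert i) (v := p.getVert j)
            (w := p.getVert (j + 1))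
          have h4 : Γ.dist (p.getVert j) (p.getVert (j + 1)) = 1 :=
            SimpleGraph.dist_eq_one_iff_adj.2 (hadj j (by omega))
          omega
      have hx : p.getVert 0 = x := p.getVert_zero
      have hy : p.getVert (n + 1) = y := by rw [← hlen]; exact p.getVert_length
      have heq : ∀ i j, i ≤ j → j ≤ n + 1 → Γ.dist (p.getVert i) (p.getVert j) = j - i := by
        intro i j hij hj
        refine le_antisymm (hle i j hij hj) ?_
        have a := hle 0 i (Nat.zero_le i) (hij.trans hj)
        have b := hle j (n + 1) hj le_rfl
        have t1 := hc.dist_triangle (u := p.getVert 0) (v := p.getVert i) (w := p.getVert j)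
        have t2 := hc.dist_triangle (u := p.getVert 0) (v := p.getVert j)
          (w := p.getVert (n + 1))
        have t3 : Γ.dist (p.getVert 0) (p.getVert (n + 1)) = n + 1 := by rw [hx, hy, h]
        omega
      have := step n hn p.getVert hadj heq ih
      rwa [hx, hy] at this
  exact fun x y => main _ x y le_rfl

end Vale.Agent.P092.H967
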